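import Vale.Agent.P164.Bdl.B9

/-!
# HULL: limits of hulls of Loewner chains and of curves

If the drivers converge uniformly and the compact sets `E n` converge in the Hausdorff sense, and
the domain of the `n`-th chain at time `c n` is the unbounded component of the half-plane minus
`E n`, then `c n` converges and the same holds for the limit chain.
-/

namespace Vale.Agent.P153.R2.HULL

open Set Metric Filter Topology
open Vale.Agent.P164

/-- The open upper half-plane. -/
def UH : Set ℂ := {z : ℂ | 0 < z.im}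

lemma mem_UH {z : ℂ} : z ∈ UH ↔ 0 < z.im := Iff.rfl

lemma isOpen_UH : IsOpen UH := isOpen_lt continuous_const Complex.continuous_im

lemma convex_UH : Convex ℝ UH := convex_halfSpace_im_gt 0

/-- A point stays alive as long as a lower bound for its height persists. -/
theorem alive_of_lower {W : ℝ → ℝ} (hW : Continuous W) {z : ℂ} (hz : 0 < z.im) {T c : ℝ}
    (hT : 0 ≤ T) (hc : 0 < c)
    (h : ∀ s, 0 ≤ s → s < T → z ∈ loewnerDomain W s → c ≤ (Zf W z s).im) :
    z ∈ loewnerDomain W T := by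
  set δ : ℝ := (c / 2) ^ 2 / 2 with hδ
  have hδpos : 0 < δ := by positivity
  have hind : ∀ n : ℕ, z ∈ loewnerDomain W (min (n * δ) T) := by
    intro n
    induction n with
    | zero =>
      have : min (((0 : ℕ) : ℝ) * δ) T = 0 := by simp [hT]
      rw [this]
      exact dom_zero.2 hz
    | succ n ih =>
      set s := min ((n : ℝ) * δ) T with hs
      have hs0 : 0 ≤ s := le_min (by positivity) hT
      rcases (min_le_right ((n : ℝ) * δ) T).lt_or_eq with hlt | heq
      · have h1 := dom_extend_unif hW hs0 ih hc (by rw [← Zf_im_eq]; exact h s hs0 hlt ih)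
        refine dom_mono ?_ h1
        have h2 : s = n * δ := by
          rw [hs]
          refine min_eq_left ?_
          by_contra hcon
          push Not at hcon
          rw [min_eq_right hcon.le] at hlt
          exact lt_irrefl _ hlt
        refine (min_le_left _ _).trans ?_
        rw [h2]
        push_cast
        linarith
      · refine dom_mono ?_ ih
        rw [hs, heq]
        exact min_le_right _ _
  obtain ⟨n, hn⟩ := exists_nat_ge (T / δ)
  have h1 := hind n
  rw [div_le_iff₀ hδpos] at hn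
  rwa [min_eq_right hn] at h1

/-- High points are alive. -/
theorem high_alive {W : ℝ → ℝ} (hW : Continuous W) {z : ℂ} {T : ℝ} (hz : 0 < z.im)
    (h : 8 * T ≤ z.im ^ 2) : z ∈ loewnerDomain W T := by
  have h1 := dom_extend_unif hW le_rfl (dom_zero.2 hz) hz (by rw [gf_zero hz])
  refine dom_mono ?_ h1
  nlinarith

/-- The square of the height decreases at speed at most `4`. -/
theorem sq_im_ge {W : ℝ → ℝ} {z : ℂ} {t : ℝ} (ht : 0 ≤ t)
    (h : z ∈ loewnerDomain W t) : z.im ^ 2 - 4 * t ≤ (Zf W z t).im ^ 2 := by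
  have h1 : ‖(Zf W z t).im ^ 2 - (Zf W z 0).im ^ 2‖ ≤ 4 * ‖t - 0‖ := by
    refine (convex_Icc 0 t).norm_image_sub_le_of_norm_hasDerivWithin_le
      (f := fun u => (Zf W z u).im ^ 2)
      (f' := fun u => 2 * (Zf W z u).im * (-(2 * (Zf W z u).im / ‖Zf W z u‖ ^ 2)))
      (fun u hu => ((Y_hasDeriv h hu).fun_pow 2).congr_deriv (by push_cast; ring))
      ?_ ⟨le_rfl, ht⟩ ⟨ht, le_rfl⟩
    intro u hu
    have h2 : 0 < ‖Zf W z u‖ := Zf_norm_pos hu.1 (dom_mono hu.2 h)
    have h3 : (Zf W z u).im ^ 2 ≤ ‖Zf W z u‖ ^ 2 := by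
      rw [← sq_abs (Zf W z u).im]
      exact pow_le_pow_left₀ (abs_nonneg _) (Complex.abs_im_le_norm _) 2
    have e : 2 * (Zf W z u).im * (-(2 * (Zf W z u).im / ‖Zf W z u‖ ^ 2)) =
        -(4 * ((Zf W z u).im ^ 2 / ‖Zf W z u‖ ^ 2)) := by ring
    rw [e, norm_neg, Real.norm_eq_abs, abs_of_nonneg (by positivity)]
    have : (Zf W z u).im ^ 2 / ‖Zf W z u‖ ^ 2 ≤ 1 := by
      rw [div_le_one (by positivity)]
      exact h3
    linarith
  have hz : 0 < z.im := im_pos_of_dom ht h
  have e0 : (Zf W z 0).im = z.im := by rw [Zf_zero hz]; simp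
  rw [e0, Real.norm_eq_abs, Real.norm_eq_abs, sub_zero, abs_of_nonneg ht] at h1
  have := (abs_le.1 h1).1
  linarith

/-- The domain of a Loewner chain is the image of the half-plane under the inverse map. -/
lemma dom_eq_image {W : ℝ → ℝ} (hW : Continuous W) {t : ℝ} (ht : 0 ≤ t) :
    loewnerDomain W t = invflow W t '' UH := by
  ext z
  constructor
  · intro hz
    exact ⟨Zf W z t, Zf_im_pos ht hz, invflow_flow ht hW.continuousOn hz⟩
  · rintro ⟨w, hw, rfl⟩
    exact invflow_mem ht hW.continuousOn hw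

lemma continuousOn_invflow {W : ℝ → ℝ} (hW : Continuous W) {t : ℝ} (ht : 0 ≤ t) :
    ContinuousOn (invflow W t) UH := fun _ hw =>
  (hasDerivAt_invflow ht hW.continuousOn hw).continuousAt.continuousWithinAt

/-- The domain of a Loewner chain is connected. -/
theorem isPreconnected_dom {W : ℝ → ℝ} (hW : Continuous W) {t : ℝ} (ht : 0 ≤ t) :
    IsPreconnected (loewnerDomain W t) := by
  rw [dom_eq_image hW ht]
  exact convex_UH.isPreconnected.image _ (continuousOn_invflow hW ht)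

lemma dom_subset_UH {W : ℝ → ℝ} {t : ℝ} (ht : 0 ≤ t) : loewnerDomain W t ⊆ UH := fun _ h =>
  im_pos_of_dom ht h

/-- The domain of a Loewner chain is unbounded. -/
theorem not_bounded_dom {W : ℝ → ℝ} (hW : Continuous W) {t : ℝ} :
    ¬ Bornology.IsBounded (loewnerDomain W t) := by
  intro hb
  obtain ⟨R, hR⟩ := hb.subset_closedBall 0
  set y : ℝ := |R| + 8 * |t| + 1 with hy
  have h1 := abs_nonneg R
  have h2 := abs_nonneg t
  have h3 : ((y : ℂ) * Complex.I) ∈ loewnerDomain W t := by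
    apply high_alive hW
    · simp only [Complex.mul_im, Complex.ofReal_re, Complex.I_im, mul_one, Complex.ofReal_im,
        Complex.I_re, mul_zero, add_zero]
      positivity
    · simp only [Complex.mul_im, Complex.ofReal_re, Complex.I_im, mul_one, Complex.ofReal_im,
        Complex.I_re, mul_zero, add_zero]
      have := le_abs_self t
      nlinarith
  have h4 := hR h3
  rw [mem_closedBall, dist_zero_right, norm_mul, Complex.norm_I, mul_one, Complex.norm_real,
    Real.norm_eq_abs, abs_of_nonneg (by positivity)] at h4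
  have := le_abs_self R
  linarith

/-- A Loewner domain contained in `S` is contained in the unbounded components of `S`. -/
theorem dom_subset_unbComp {W : ℝ → ℝ} (hW : Continuous W) {t : ℝ} (ht : 0 ≤ t) {S : Set ℂ}
    (h : loewnerDomain W t ⊆ S) : loewnerDomain W t ⊆ unbComp S := fun _ hz =>
  ⟨h hz, fun hb => not_bounded_dom hW
    (hb.subset ((isPreconnected_dom hW ht).subset_connectedComponentIn hz h))⟩

/-- The Loewner domains determine the time. -/
theorem time_unique {W : ℝ → ℝ} (hW : Continuous W) {s t : ℝ} (hs : 0 ≤ s) (ht : 0 ≤ t)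
    (h : loewnerDomain W s = loewnerDomain W t) : s = t := by
  rcases lt_trichotomy s t with h1 | h1 | h1
  · exact absurd h (domain_ne hW hs h1)
  · exact h1
  · exact absurd h.symm (domain_ne hW ht h1)

section limit

variable {ι : Type*} {l : Filter ι}

/-- Hausdorff convergence of the sets `E n` to `E0` along the filter `l`. -/
structure HConv (l : Filter ι) (E : ι → Set ℂ) (E0 : Set ℂ) : Prop where
  lower : ∀ z ∈ E0, ∀ ε > 0, ∀ᶠ n in l, ∃ w ∈ E n, dist w z < ε
  upper : ∀ ε > 0, ∀ᶠ n in l, ∀ w ∈ E n, ∃ z ∈ E0, dist w z < ε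

lemma HConv.mono {l' : Filter ι} {E : ι → Set ℂ} {E0 : Set ℂ} (h : HConv l E E0) (hl : l' ≤ l) :
    HConv l' E E0 :=
  ⟨fun z hz ε hε => (h.lower z hz ε hε).filter_mono hl,
    fun ε hε => (h.upper ε hε).filter_mono hl⟩

variable {W : ι → ℝ → ℝ} {W0 : ℝ → ℝ} {T : ℝ} {c : ι → ℝ} {c0 : ℝ} {E : ι → Set ℂ} {E0 : Set ℂ}

lemma driver_close (hWT : TendstoUniformlyOn W W0 l (Icc 0 T)) {δ : ℝ} (hδ : 0 < δ) :
    ∀ᶠ n in l, ∀ s ∈ Icc 0 T, |W n s - W0 s| < δ := by
  filter_upwards [Metric.tendstoUniformlyOn_iff.1 hWT δ hδ] with n hn s hs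
  have := hn s hs
  rw [Real.dist_eq, abs_sub_comm] at this
  exact this

/-- One direction: the limit domain avoids the limit set. -/
theorem limit_subset [l.NeBot] (hW : ∀ n, Continuous (W n)) (hW0 : Continuous W0)
    (hWT : TendstoUniformlyOn W W0 l (Icc 0 T)) (hc : Tendsto c l (𝓝 c0))
    (hcT : ∀ᶠ n in l, c n ∈ Icc 0 T) (hc0 : 0 ≤ c0) (hE : HConv l E E0)
    (hdom : ∀ᶠ n in l, loewnerDomain (W n) (c n) = unbComp (UH \ E n)) :
    loewnerDomain W0 c0 ⊆ unbComp (UH \ E0) := by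
  apply dom_subset_unbComp hW0 hc0
  intro z hz
  refine ⟨dom_subset_UH hc0 hz, fun hzE => ?_⟩
  obtain ⟨δ, hδ, hst⟩ := flow_stable hW0 hc0 hz one_pos
  have h1 : ∀ᶠ n in l, |c n - c0| < δ := by
    have := (Metric.tendsto_nhds.1 hc) δ hδ
    simpa only [Real.dist_eq] using this
  have hev : ∀ᶠ n in l, False := by
    filter_upwards [hE.lower z hzE δ hδ, h1, hcT, hdom, driver_close hWT hδ] with n a1 a2 a3 a4 a5
    obtain ⟨w, hwE, hwz⟩ := a1
    have h2 := (hst w (W n) (c n) hwz (hW n) (fun s hs => a5 s ⟨hs.1, hs.2.trans a3.2⟩) a2 a3.1).1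
    rw [a4] at h2
    exact h2.1.2 hwE
  exact (hev.exists).elim fun _ h => h

/-- Uniform positivity of the height along the sequence. -/
def Qp (l : Filter ι) (W : ι → ℝ → ℝ) (c : ι → ℝ) (w : ℂ) : Prop :=
  ∃ m : ℝ, 0 < m ∧ ∀ᶠ n in l, w ∈ loewnerDomain (W n) (c n) ∧ m ≤ (Zf (W n) w (c n)).im

/-- Harnack step. -/
theorem Qp_step (hW : ∀ n, Continuous (W n)) (hcT : ∀ᶠ n in l, c n ∈ Icc 0 T)
    (hE0 : IsClosed E0) (hE : HConv l E E0)
    (hdom : ∀ᶠ n in l, loewnerDomain (W n) (c n) = unbComp (UH \ E n)) {w0 : ℂ}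
    (hw0 : w0 ∈ UH \ E0) :
    ∃ r > 0, ∀ w ∈ ball w0 r, ∀ w' ∈ ball w0 r, Qp l W c w → Qp l W c w' := by
  have hop : IsOpen (UH \ E0) := isOpen_UH.sdiff hE0
  obtain ⟨ρ3, hρ3, hball⟩ := Metric.isOpen_iff.1 hop w0 hw0
  set ρ : ℝ := ρ3 / 3 with hρdef
  have hρ : 0 < ρ := by positivity
  refine ⟨ρ / 320, by positivity, fun w hw w' hw' hQ => ?_⟩
  obtain ⟨m, hm, hev⟩ := hQ
  refine ⟨m / 2, by positivity, ?_⟩
  filter_upwards [hev, hcT, hdom, hE.upper ρ hρ] with n a1 a2 a3 a4
  have hb : ball w0 (2 * ρ) ⊆ UH \ E n := by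
    intro x hx
    refine ⟨(hball (ball_subset_ball (by rw [hρdef]; linarith) hx)).1, fun hxE => ?_⟩
    obtain ⟨z', hz', hd⟩ := a4 x hxE
    have hz'b : z' ∈ ball w0 ρ3 := by
      rw [mem_ball] at hx ⊢
      have := dist_triangle z' x w0
      rw [dist_comm] at hd
      rw [hρdef] at hd hx
      linarith
    exact (hball hz'b).2 hz'
  have hww0 : w ∈ ball w0 (2 * ρ) := ball_subset_ball (by linarith) hw
  have hbd : ball w0 (2 * ρ) ⊆ loewnerDomain (W n) (c n) := by
    intro x hx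
    rw [a3]
    refine unbComp_of_preconnected (convex_ball w0 (2 * ρ)).isPreconnected hb hww0 hx ?_
    rw [← a3]
    exact a1.1
  have hbw : ball w ρ ⊆ loewnerDomain (W n) (c n) := by
    refine Subset.trans (ball_subset_ball' ?_) hbd
    rw [mem_ball] at hw
    linarith
  have hexp := le_exp_Uf (hW n) a2.1 hρ hbw
  have hdd : dist w' w < ρ / 160 := by
    rw [mem_ball] at hw hw'
    have := dist_triangle_right w' w w0
    linarith
  obtain ⟨hw'd, hcl⟩ := pull_close (z' := w') (hW n) a2.1 a1.1 (by linarith)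
  refine ⟨hw'd, ?_⟩
  have hY := Zf_im_pos a2.1 a1.1
  have he := Real.exp_pos (Uf (W n) w (c n))
  have h5 : 40 * (Zf (W n) w (c n)).im * dist w' w * Real.exp (-Uf (W n) w (c n)) ≤
      (Zf (W n) w (c n)).im / 2 := by
    rw [Real.exp_neg, ← div_eq_mul_inv, div_le_iff₀ he]
    have h6 : dist w' w ≤ Real.exp (Uf (W n) w (c n)) / 80 := by linarith
    calc 40 * (Zf (W n) w (c n)).im * dist w' w
        ≤ 40 * (Zf (W n) w (c n)).im * (Real.exp (Uf (W n) w (c n)) / 80) := by gcongr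
      _ = (Zf (W n) w (c n)).im / 2 * Real.exp (Uf (W n) w (c n)) := by ring
  have h7 : |(Zf (W n) w' (c n)).im - (Zf (W n) w (c n)).im| ≤
      dist (Zf (W n) w' (c n)) (Zf (W n) w (c n)) := by
    rw [dist_eq_norm, ← Complex.sub_im]
    exact Complex.abs_im_le_norm _
  have h8 := neg_abs_le ((Zf (W n) w' (c n)).im - (Zf (W n) w (c n)).im)
  have h9 := a1.2
  linarith

/-- The other direction. -/
theorem subset_limit [l.NeBot] (hW : ∀ n, Continuous (W n)) (hW0 : Continuous W0)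
    (hWT : TendstoUniformlyOn W W0 l (Icc 0 T)) (hc : Tendsto c l (𝓝 c0))
    (hcT : ∀ᶠ n in l, c n ∈ Icc 0 T) (hc0 : 0 ≤ c0) (hc0T : c0 ≤ T) (hE0 : IsCompact E0)
    (hE : HConv l E E0)
    (hdom : ∀ᶠ n in l, loewnerDomain (W n) (c n) = unbComp (UH \ E n)) :
    unbComp (UH \ E0) ⊆ loewnerDomain W0 c0 := by
  intro z hz
  set O := connectedComponentIn (UH \ E0) z with hO
  have hzO : z ∈ O := mem_connectedComponentIn hz.1
  have hOs : O ⊆ UH \ E0 := connectedComponentIn_subset _ _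
  have hOp : IsPreconnected O := isPreconnected_connectedComponentIn
  -- a far point of `O`
  obtain ⟨R, hR⟩ := hE0.isBounded.subset_closedBall 0
  obtain ⟨w1, hw1O, hw1⟩ : ∃ w1 ∈ O, R < ‖w1‖ := by
    by_contra hcon
    push Not at hcon
    exact hz.2 ((isBounded_closedBall (x := (0 : ℂ)) (r := R)).subset fun x hx => by
      rw [mem_closedBall, dist_zero_right]; exact hcon x hx)
  have hw1im : 0 < w1.im := (hOs hw1O).1
  set Y : ℝ := 12 * |T| + 1 with hYdef
  have hT0 := abs_nonneg T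
  have hY0 : 0 < Y := by positivity
  set w2 : ℂ := w1 + (Y : ℂ) * Complex.I with hw2
  have hseg : segment ℝ w1 w2 ⊆ UH \ E0 := by
    intro x hx
    rw [segment_eq_image'] at hx
    obtain ⟨θ, hθ, rfl⟩ := hx
    change w1 + θ • (w2 - w1) ∈ UH \ E0
    have e1 : w1 + θ • (w2 - w1) = w1 + ((θ * Y : ℝ) : ℂ) * Complex.I := by
      rw [hw2]
      simp only [add_sub_cancel_left, Complex.real_smul]
      push_cast
      ring
    rw [e1]
    have hθY : 0 ≤ θ * Y := mul_nonneg hθ.1 hY0.le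
    have him : (w1 + ((θ * Y : ℝ) : ℂ) * Complex.I).im = w1.im + θ * Y := by
      simp
    have hre : (w1 + ((θ * Y : ℝ) : ℂ) * Complex.I).re = w1.re := by simp
    refine ⟨?_, fun hxE => ?_⟩
    · rw [mem_UH, him]
      linarith
    · have h1 := hR hxE
      rw [mem_closedBall, dist_zero_right] at h1
      have h2 : ‖w1‖ ^ 2 ≤ ‖w1 + ((θ * Y : ℝ) : ℂ) * Complex.I‖ ^ 2 := by
        rw [Complex.sq_norm, Complex.sq_norm, Complex.normSq_apply, Complex.normSq_apply, hre, him]
        nlinarith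
      have h3 : ‖w1‖ ≤ ‖w1 + ((θ * Y : ℝ) : ℂ) * Complex.I‖ :=
        (pow_le_pow_iff_left₀ (norm_nonneg _) (norm_nonneg _) two_ne_zero).1 h2
      linarith
  have hw2O : w2 ∈ O := by
    have h1 : O = connectedComponentIn (UH \ E0) w1 := connectedComponentIn_eq hw1O
    rw [h1]
    exact (convex_segment w1 w2).isPreconnected.subset_connectedComponentIn
      (left_mem_segment ℝ w1 w2) hseg (right_mem_segment ℝ w1 w2)
  have hw2im : w2.im = w1.im + Y := by rw [hw2]; simp
  have hQ2 : Qp l W c w2 := by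
    refine ⟨1, one_pos, ?_⟩
    filter_upwards [hcT] with n hn
    have hTabs : c n ≤ |T| := hn.2.trans (le_abs_self T)
    have h1 : 12 * |T| + 1 ≤ w2.im ^ 2 := by
      rw [hw2im]
      nlinarith
    have h2 : w2 ∈ loewnerDomain (W n) (c n) :=
      high_alive (hW n) (by rw [hw2im]; linarith) (by linarith)
    refine ⟨h2, ?_⟩
    have h3 := sq_im_ge hn.1 h2
    have h4 := Zf_im_pos hn.1 h2
    by_contra hcon
    push Not at hcon
    nlinarith
  -- propagate
  have hQz : Qp l W c z := by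
    refine hOp.induction₂' (P := fun x y => Qp l W c x → Qp l W c y) ?_ ?_ hw2O hzO hQ2
    · intro x hx
      obtain ⟨r, hr, hst⟩ := Qp_step hW hcT hE0.isClosed hE hdom (hOs hx)
      have : ball x r ∈ 𝓝[O] x := mem_nhdsWithin_of_mem_nhds (ball_mem_nhds x hr)
      filter_upwards [this] with y hy
      exact ⟨hst x (mem_ball_self hr) y hy, hst y hy x (mem_ball_self hr)⟩
    · intro x y w _ _ _ h1 h2 h3
      exact h2 (h1 h3)
  -- conclusion
  obtain ⟨m, hm, hev⟩ := hQz
  refine alive_of_lower hW0 hz.1.1 hc0 hm fun s hs0 hsc hzs => ?_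
  refine le_of_forall_pos_le_add fun ε hε => ?_
  obtain ⟨δ, hδ, hst⟩ := flow_stable hW0 hs0 hzs hε
  have h1 : ∀ᶠ n in l, s < c n := hc.eventually (lt_mem_nhds hsc)
  obtain ⟨n, a1, a2, a3, a4⟩ := (hev.and (h1.and (hcT.and (driver_close hWT hδ)))).exists
  have h2 := (hst z (W n) s (by rwa [dist_self]) (hW n)
    (fun u hu => a4 u ⟨hu.1, hu.2.trans (hsc.le.trans hc0T)⟩)
    (by rwa [sub_self, abs_zero]) hs0).2.1
  have h3 := im_le_of_le hs0 a2.le a1.1
  have h4 : |(Zf (W n) z s).im - (Zf W0 z s).im| ≤ dist (Zf (W n) z s) (Zf W0 z s) := by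
    rw [dist_eq_norm, ← Complex.sub_im]
    exact Complex.abs_im_le_norm _
  have h5 := le_abs_self ((Zf (W n) z s).im - (Zf W0 z s).im)
  have h6 := a1.2
  linarith

/-- **Hull lemma.** -/
theorem hull_limit [l.NeBot] (hW : ∀ n, Continuous (W n)) (hW0 : Continuous W0)
    (hWT : TendstoUniformlyOn W W0 l (Icc 0 T)) (hc : Tendsto c l (𝓝 c0))
    (hcT : ∀ᶠ n in l, c n ∈ Icc 0 T) (hE0 : IsCompact E0) (hE : HConv l E E0)
    (hdom : ∀ᶠ n in l, loewnerDomain (W n) (c n) = unbComp (UH \ E n)) :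
    c0 ∈ Icc 0 T ∧ loewnerDomain W0 c0 = unbComp (UH \ E0) := by
  have hc0 : c0 ∈ Icc 0 T := isClosed_Icc.mem_of_tendsto hc hcT
  exact ⟨hc0, Subset.antisymm (limit_subset hW hW0 hWT hc hcT hc0.1 hE hdom)
    (subset_limit hW hW0 hWT hc hcT hc0.1 hc0.2 hE0 hE hdom)⟩

/-- The capacities converge. -/
theorem cap_limit [l.NeBot] (hW : ∀ n, Continuous (W n)) (hW0 : Continuous W0)
    (hWT : TendstoUniformlyOn W W0 l (Icc 0 T))
    (hcT : ∀ᶠ n in l, c n ∈ Icc 0 T) (hE0 : IsCompact E0) (hE : HConv l E E0)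
    (hdom : ∀ᶠ n in l, loewnerDomain (W n) (c n) = unbComp (UH \ E n)) :
    ∃ c0 ∈ Icc 0 T, Tendsto c l (𝓝 c0) ∧ loewnerDomain W0 c0 = unbComp (UH \ E0) := by
  have key : ∀ f : Ultrafilter ι, (f : Filter ι) ≤ l →
      ∃ x ∈ Icc 0 T, Tendsto c f (𝓝 x) ∧ loewnerDomain W0 x = unbComp (UH \ E0) := by
    intro f hf
    have h1 : ∀ᶠ n in (f : Filter ι), c n ∈ Icc 0 T := hcT.filter_mono hf
    have h2 : ((f.map c : Ultrafilter ℝ) : Filter ℝ) ≤ 𝓟 (Icc 0 T) := by
      rw [le_principal_iff]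
      exact h1
    obtain ⟨x, hx, hlim⟩ := isCompact_Icc.ultrafilter_le_nhds (f.map c) h2
    have h3 : Tendsto c f (𝓝 x) := hlim
    exact ⟨x, hx, h3, (hull_limit hW hW0 (fun u hu => (hWT u hu).filter_mono hf) h3 h1 hE0 (hE.mono hf)
      (hdom.filter_mono hf)).2⟩
  obtain ⟨x, hx, -, hxd⟩ := key (Ultrafilter.of l) (Ultrafilter.of_le l)
  refine ⟨x, hx, ?_, hxd⟩
  rw [tendsto_iff_ultrafilter]
  intro f hf
  obtain ⟨y, hy, hty, hyd⟩ := key f hf
  have : y = x := time_unique hW0 hy.1 hx.1 (hyd.trans hxd.symm)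
  rwa [this] at hty

end limit

end Vale.Agent.P153.R2.HULL
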