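import Vale.Agent.P153.R2.HULL.CapBound
import Vale.Agent.P153.R2.ARCX.Defs

/-!
# HULL: the statement `S_hull`
-/

namespace Vale.Agent.P153.R2.HULL

open Set Metric Filter Topology
open Vale.Agent.P164
open Vale.Agent.P153.R2.ARCX

/-- A Loewner domain is its own unbounded component. -/
lemma unbComp_dom {W : ℝ → ℝ} (hW : Continuous W) {t : ℝ} (ht : 0 ≤ t) {S : Set ℂ}
    (h : loewnerDomain W t = S) : loewnerDomain W t = unbComp S := by
  refine Subset.antisymm (dom_subset_unbComp hW ht h.subset) ?_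
  rw [h]
  exact fun z hz => hz.1

/-- The Loewner domains are strictly decreasing. -/
theorem dom_strict {W : ℝ → ℝ} (hW : Continuous W) {s t : ℝ} (hs : 0 ≤ s) (hst : s < t) :
    ∃ z ∈ loewnerDomain W s, z ∉ loewnerDomain W t := by
  by_contra hcon
  push Not at hcon
  exact domain_ne hW hs hst (Subset.antisymm hcon (loewnerDomain_anti W hst.le))

theorem s_hull : S_hull := by
  intro Wn ηn cn W η T hA hη
  have hT := (hA.sgen 0).pos
  -- the curves are uniformly bounded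
  have key : ∀ L : ℝ, 0 ≤ L → L < T → ∃ c0 : ℝ → ℝ, ContinuousOn c0 (Icc 0 L) ∧
      MonotoneOn c0 (Icc 0 L) ∧ TendstoUniformlyOn cn c0 atTop (Icc 0 L) ∧
      ∀ u ∈ Icc 0 L, loewnerDomain W (c0 u) = unbComp (UH \ η '' Icc 0 u) := by
    intro L hL hLT
    have hcont : ContinuousOn η (Icc 0 L) := hη.mono fun u hu => ⟨hu.1, hu.2.trans_lt hLT⟩
    obtain ⟨R, hR⟩ := isCompact_Icc.exists_bound_of_continuousOn hcont
    set R1 : ℝ := |R| + 1 with hR1
    have hR1pos : 0 < R1 := by positivity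
    have hbd : ∀ᶠ n in atTop, ∀ u ∈ Icc 0 L, ‖ηn n u‖ < R1 := by
      filter_upwards [Metric.tendstoUniformlyOn_iff.1 (hA.crv L ⟨hL, hLT⟩) 1 one_pos] with n hn
      intro u hu
      have h1 := hn u hu
      have h2 := hR u hu
      have h3 := norm_sub_norm_le (ηn n u) (η u)
      rw [dist_comm, dist_eq_norm] at h1
      have := le_abs_self R
      rw [hR1]
      linarith
    have hcpos : ∀ n, ∀ u ∈ Icc 0 L, 0 ≤ cn n u := by
      intro n u hu
      have h1 := (hA.sgen n).mono.monotoneOn ⟨le_rfl, hT⟩ ⟨hu.1, hu.2.trans_lt hLT⟩ hu.1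
      rwa [(hA.sgen n).c_zero] at h1
    have hcT : ∀ᶠ n in atTop, ∀ u ∈ Icc 0 L, cn n u ∈ Icc 0 (R1 ^ 2 / 2) := by
      filter_upwards [hbd] with n hn u hu
      refine ⟨hcpos n u hu, cap_le (hA.contWn n) (hcpos n u hu) hR1pos ?_⟩
      intro z hz hzR
      rw [(hA.sgen n).dom u ⟨hu.1, hu.2.trans_lt hLT⟩]
      refine ⟨hz, ?_⟩
      rintro ⟨v, hv, rfl⟩
      exact absurd (hn v ⟨hv.1, hv.2.trans hu.2⟩) (not_lt.2 hzR.le)
    obtain ⟨c0, h1, h2, -, h4, h5⟩ := cap_curve (l := atTop) (W := Wn) (W0 := W)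
      (T := R1 ^ 2 / 2) (L := L) hA.contWn hA.contW (hA.drv _) (η := ηn) (η0 := η) hcont
      (hA.crv L ⟨hL, hLT⟩) (c := cn) hcT
      (Eventually.of_forall fun n => (hA.sgen n).mono.monotoneOn.mono
        fun u hu => ⟨hu.1, hu.2.trans_lt hLT⟩)
      (Eventually.of_forall fun n u hu => unbComp_dom (hA.contWn n) (hcpos n u hu)
        ((hA.sgen n).dom u ⟨hu.1, hu.2.trans_lt hLT⟩))
    exact ⟨c0, h1, h2, h4, h5⟩
  have hlim : ∀ u ∈ Ico 0 T, ∃ x, Tendsto (fun n => cn n u) atTop (𝓝 x) := by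
    intro u hu
    obtain ⟨c0, -, -, h3, -⟩ := key u hu.1 hu.2
    exact ⟨c0 u, h3.tendsto_at ⟨hu.1, le_rfl⟩⟩
  choose! c hc using hlim
  have heq : ∀ L : ℝ, 0 ≤ L → L < T → ∀ c0 : ℝ → ℝ, TendstoUniformlyOn cn c0 atTop (Icc 0 L) →
      EqOn c c0 (Icc 0 L) := by
    intro L hL hLT c0 h3 u hu
    exact tendsto_nhds_unique (hc u ⟨hu.1, hu.2.trans_lt hLT⟩) (h3.tendsto_at hu)
  refine ⟨c, ?_, hc⟩
  constructor
  · exact hT
  · exact hη
  · intro t ht
    have h1 : Tendsto (fun n => (ηn n t).im) atTop (𝓝 (η t).im) :=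
      (Complex.continuous_im.tendsto _).comp ((hA.crv t ht).tendsto_at ⟨ht.1, le_rfl⟩)
    refine ge_of_tendsto h1 (Eventually.of_forall fun n => ?_)
    rcases ht.1.eq_or_lt with h0 | h0
    · rw [← h0, (hA.sgen n).start]; simp
    · exact ((hA.sgen n).im_pos t ⟨h0, ht.2⟩).le
  · have h1 : Tendsto (fun n => ηn n 0) atTop (𝓝 (η 0)) :=
      (hA.crv 0 ⟨le_rfl, hT⟩).tendsto_at ⟨le_rfl, le_rfl⟩
    have h2 : Tendsto (fun n => ((Wn n 0 : ℝ) : ℂ)) atTop (𝓝 (W 0 : ℂ)) :=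
      (Complex.continuous_ofReal.tendsto _).comp ((hA.drv 0).tendsto_at ⟨le_rfl, le_rfl⟩)
    have h3 : (fun n => ηn n 0) = fun n => ((Wn n 0 : ℝ) : ℂ) :=
      funext fun n => (hA.sgen n).start
    rw [h3] at h1
    exact tendsto_nhds_unique h1 h2
  · intro u hu
    set L := (u + T) / 2 with hLd
    have hL : 0 ≤ L := by rw [hLd]; linarith [hu.1]
    have hLT : L < T := by rw [hLd]; linarith [hu.2]
    have huL : u < L := by rw [hLd]; linarith [hu.2]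
    obtain ⟨c0, h1, -, h3, -⟩ := key L hL hLT
    have h4 : ContinuousOn c (Icc 0 L) := h1.congr (heq L hL hLT c0 h3)
    have h5 := h4 u ⟨hu.1, huL.le⟩
    refine h5.mono_of_mem_nhdsWithin ?_
    have h6 : Iio L ∈ 𝓝[Ico 0 T] u := mem_nhdsWithin_of_mem_nhds (Iio_mem_nhds huL)
    filter_upwards [h6, self_mem_nhdsWithin] with v hv hv'
    exact ⟨hv'.1, le_of_lt hv⟩
  · intro u hu v hv huv
    obtain ⟨c0, -, h2, h3, -⟩ := key v hv.1 hv.2
    have := heq v hv.1 hv.2 c0 h3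
    rw [this ⟨hu.1, huv⟩, this ⟨hv.1, le_rfl⟩]
    exact h2 ⟨hu.1, huv⟩ ⟨hv.1, le_rfl⟩ huv
  · have h1 := hc 0 ⟨le_rfl, hT⟩
    have h2 : (fun n => cn n 0) = fun _ => (0 : ℝ) := funext fun n => (hA.sgen n).c_zero
    rw [h2] at h1
    exact (tendsto_nhds_unique h1 tendsto_const_nhds)
  · intro u hu
    obtain ⟨c0, -, -, h3, h4⟩ := key u hu.1 hu.2
    rw [heq u hu.1 hu.2 c0 h3 ⟨hu.1, le_rfl⟩]
    exact h4 u ⟨hu.1, le_rfl⟩

end Vale.Agent.P153.R2.HULL
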