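import Vale.Agent.P153.R2.HULL.Limit

/-!
# HULL: a priori bounds for the Loewner flow
-/

namespace Vale.Agent.P153.R2.HULL

open Set Metric Filter Topology
open Vale.Agent.P164

variable {W : ℝ → ℝ} {s M : ℝ} {z : ℂ}

lemma norm_Zf_ge (hM : ∀ u ∈ Icc 0 s, |W u| ≤ M) {u : ℝ} (hu : u ∈ Icc 0 s) :
    ‖gf W z u‖ - M ≤ ‖Zf W z u‖ := by
  have h1 := norm_sub_norm_le (gf W z u) (W u : ℂ)
  rw [← Zf_eq, Complex.norm_real, Real.norm_eq_abs] at h1
  have := hM u hu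
  linarith

/-- Far points move little while they are alive. -/
lemma far_aux (hs : 0 < s) (hM : ∀ u ∈ Icc 0 s, |W u| ≤ M) (hz : 0 < z.im)
    (hfar : M + 3 * √s < ‖z‖) {s' : ℝ} (hs' : s' ∈ Icc 0 s) (h : z ∈ loewnerDomain W s') :
    ∀ u ∈ Icc 0 s', ‖gf W z u - z‖ < √s := by
  have hq : 0 < √s := Real.sqrt_pos.2 hs
  have hqq : √s * √s = s := Real.mul_self_sqrt hs.le
  by_contra hcon
  push Not at hcon
  obtain ⟨u, hu, hu2⟩ := hcon
  have hcont : ContinuousOn (fun v => ‖gf W z v - z‖) (Icc 0 s') :=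
    ((gf_cont hs'.1 h).sub continuousOn_const).norm
  have hcl : IsCompact {v ∈ Icc 0 s' | √s ≤ ‖gf W z v - z‖} := by
    have : {v ∈ Icc 0 s' | √s ≤ ‖gf W z v - z‖} =
        Icc 0 s' ∩ (fun v => ‖gf W z v - z‖) ⁻¹' Ici √s := rfl
    rw [this]
    exact isCompact_Icc.of_isClosed_subset (hcont.preimage_isClosed_of_isClosed isClosed_Icc
      isClosed_Ici) inter_subset_left
  obtain ⟨u0, hu0, hleast⟩ := hcl.exists_isLeast ⟨u, hu, hu2⟩
  have hlt : ∀ v ∈ Icc 0 u0, ‖gf W z v - z‖ ≤ √s := by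
    intro v hv
    rcases hv.2.eq_or_lt with h1 | h1
    · -- limit from the left
      by_contra hcon
      push Not at hcon
      rw [h1] at hcon
      have h0 : 0 < u0 := by
        rcases hu0.1.1.eq_or_lt with h2 | h2
        · rw [← h2, gf_zero hz, sub_self, norm_zero] at hcon
          linarith
        · exact h2
      have hc : ContinuousWithinAt (fun v => ‖gf W z v - z‖) (Icc 0 s') u0 := hcont u0 hu0.1
      have h3 : ∀ᶠ v in 𝓝[Icc 0 s'] u0, √s < ‖gf W z v - z‖ :=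
        hc.eventually (lt_mem_nhds hcon)
      have h4 : (𝓝[Ioo 0 u0] u0).NeBot := by
        rw [← mem_closure_iff_nhdsWithin_neBot, closure_Ioo h0.ne]
        exact ⟨h0.le, le_rfl⟩
      have h5 : ∀ᶠ v in 𝓝[Ioo 0 u0] u0, √s < ‖gf W z v - z‖ :=
        h3.filter_mono (nhdsWithin_mono _
          (fun v hv => ⟨hv.1.le, hv.2.le.trans hu0.1.2⟩ : Ioo 0 u0 ⊆ Icc 0 s'))
      obtain ⟨v, hv1, hv2⟩ := (h5.and self_mem_nhdsWithin).exists
      have := hleast ⟨⟨hv2.1.le, hv2.2.le.trans hu0.1.2⟩, hv1.le⟩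
      linarith [hv2.2]
    · by_contra hcon
      push Not at hcon
      have := hleast ⟨⟨hv.1, hv.2.trans hu0.1.2⟩, hcon.le⟩
      linarith
  set δ : ℝ := ‖z‖ - M - 3 * √s with hδ
  have hδ0 : 0 < δ := by rw [hδ]; linarith
  have hZ : ∀ v ∈ Icc 0 u0, 2 * √s + δ ≤ ‖Zf W z v‖ := by
    intro v hv
    have h1 := norm_Zf_ge (z := z) hM ⟨hv.1, hv.2.trans (hu0.1.2.trans hs'.2)⟩
    have h2 := hlt v hv
    have h3 := norm_sub_norm_le z (gf W z v)
    rw [norm_sub_rev] at h3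
    rw [hδ]
    linarith
  have hmv : ‖gf W z u0 - gf W z 0‖ ≤ 2 / (2 * √s + δ) * ‖u0 - 0‖ := by
    refine (convex_Icc 0 u0).norm_image_sub_le_of_norm_hasDerivWithin_le
      (f := fun v => gf W z v) (f' := fun v => 2 / Zf W z v)
      (fun v hv => (gf_hasDeriv h ⟨hv.1, hv.2.trans hu0.1.2⟩).mono
        (Icc_subset_Icc_right hu0.1.2)) ?_ ⟨le_rfl, hu0.1.1⟩ ⟨hu0.1.1, le_rfl⟩
    intro v hv
    rw [norm_div, Complex.norm_ofNat]
    exact div_le_div_of_nonneg_left (by norm_num) (by positivity) (hZ v hv)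
  rw [gf_zero hz, sub_zero, Real.norm_eq_abs, abs_of_nonneg hu0.1.1] at hmv
  have h6 := hu0.2
  have h7 : u0 ≤ s := hu0.1.2.trans hs'.2
  have h8 : 2 / (2 * √s + δ) * u0 < √s := by
    rw [div_mul_eq_mul_div, div_lt_iff₀ (by positivity)]
    nlinarith [mul_pos hq hδ0]
  linarith

/-- Far points stay alive and move little. -/
theorem far_alive (hW : Continuous W) (hs : 0 < s) (hM : ∀ u ∈ Icc 0 s, |W u| ≤ M)
    (hz : 0 < z.im) (hfar : M + 3 * √s < ‖z‖) :
    z ∈ loewnerDomain W s ∧ ∀ u ∈ Icc 0 s, ‖gf W z u - z‖ < √s := by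
  have hq : 0 < √s := Real.sqrt_pos.2 hs
  have hqq : √s * √s = s := Real.mul_self_sqrt hs.le
  have hdom : z ∈ loewnerDomain W s := by
    refine alive_of_lower hW hz hs.le (c := Real.exp (Real.log z.im - 1 / 2))
      (Real.exp_pos _) fun s' h0 h1 h2 => ?_
    have haux := far_aux hs hM hz hfar ⟨h0, h1.le⟩ h2
    have hZ : ∀ v ∈ Icc 0 s', 2 * √s ≤ ‖Zf W z v‖ := by
      intro v hv
      have h3 := norm_Zf_ge (z := z) hM ⟨hv.1, hv.2.trans h1.le⟩
      have h4 := haux v hv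
      have h5 := norm_sub_norm_le z (gf W z v)
      rw [norm_sub_rev] at h5
      linarith
    have h3 : ‖Real.log (Zf W z s').im - Real.log (Zf W z 0).im‖ ≤ 1 / (2 * s) * ‖s' - 0‖ := by
      refine (convex_Icc 0 s').norm_image_sub_le_of_norm_hasDerivWithin_le
        (f := fun u => Real.log (Zf W z u).im) (f' := fun u => -(2 / ‖Zf W z u‖ ^ 2))
        (fun u hu => logY_hasDeriv h2 hu) ?_ ⟨le_rfl, h0⟩ ⟨h0, le_rfl⟩
      intro u hu
      have h4 := hZ u hu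
      have h5 : 4 * s ≤ ‖Zf W z u‖ ^ 2 := by nlinarith
      rw [norm_neg, Real.norm_eq_abs, abs_of_nonneg (by positivity),
        div_le_div_iff₀ (by linarith) (by positivity)]
      linarith
    have e0 : (Zf W z 0).im = z.im := by rw [Zf_zero hz]; simp
    rw [e0, sub_zero, Real.norm_eq_abs, Real.norm_eq_abs, abs_of_nonneg h0] at h3
    have h4 : 1 / (2 * s) * s' ≤ 1 / 2 := by
      rw [div_mul_eq_mul_div, div_le_iff₀ (by positivity)]
      linarith
    have h5 := neg_abs_le (Real.log (Zf W z s').im - Real.log z.im)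
    rw [← Real.le_log_iff_exp_le (Zf_im_pos h0 h2)]
    linarith
  exact ⟨hdom, far_aux hs hM hz hfar ⟨hs.le, le_rfl⟩ hdom⟩

/-- The flow of any alive point is bounded. -/
theorem gf_norm_le (hs : 0 < s) (hM : ∀ u ∈ Icc 0 s, |W u| ≤ M)
    (h : z ∈ loewnerDomain W s) : ‖gf W z s‖ ≤ max ‖z‖ (M + 2 * √s) + √s := by
  have hq : 0 < √s := Real.sqrt_pos.2 hs
  have hqq : √s * √s = s := Real.mul_self_sqrt hs.le
  have hz : 0 < z.im := im_pos_of_dom hs.le h
  set N : ℝ := max ‖z‖ (M + 2 * √s) with hN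
  have hcont : ContinuousOn (fun v => ‖gf W z v‖) (Icc 0 s) := (gf_cont hs.le h).norm
  have hcl : IsCompact {v ∈ Icc 0 s | ‖gf W z v‖ ≤ N} := by
    have : {v ∈ Icc 0 s | ‖gf W z v‖ ≤ N} = Icc 0 s ∩ (fun v => ‖gf W z v‖) ⁻¹' Iic N := rfl
    rw [this]
    exact isCompact_Icc.of_isClosed_subset (hcont.preimage_isClosed_of_isClosed isClosed_Icc
      isClosed_Iic) inter_subset_left
  obtain ⟨u1, hu1, hgr⟩ := hcl.exists_isGreatest ⟨0, ⟨le_rfl, hs.le⟩, by
    rw [gf_zero hz]; exact le_max_left _ _⟩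
  rcases hu1.1.2.eq_or_lt with h1 | h1
  · have := hu1.2
    rw [h1] at this
    linarith
  have hge : ∀ v ∈ Icc u1 s, N ≤ ‖gf W z v‖ := by
    have hcl2 : IsClosed (Icc u1 s ∩ (fun v => ‖gf W z v‖) ⁻¹' Ici N) :=
      (hcont.mono (Icc_subset_Icc_left hu1.1.1)).preimage_isClosed_of_isClosed isClosed_Icc
        isClosed_Ici
    have hsub : Ioc u1 s ⊆ Icc u1 s ∩ (fun v => ‖gf W z v‖) ⁻¹' Ici N := by
      intro v hv
      refine ⟨⟨hv.1.le, hv.2⟩, ?_⟩
      change N ≤ ‖gf W z v‖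
      by_contra hcon
      push Not at hcon
      have := hgr ⟨⟨hu1.1.1.trans hv.1.le, hv.2⟩, hcon.le⟩
      linarith [hv.1]
    intro v hv
    have := (closure_minimal hsub hcl2) (by rw [closure_Ioc h1.ne]; exact hv)
    exact this.2
  have hmv : ‖gf W z s - gf W z u1‖ ≤ 1 / √s * ‖s - u1‖ := by
    refine (convex_Icc u1 s).norm_image_sub_le_of_norm_hasDerivWithin_le
      (f := fun v => gf W z v) (f' := fun v => 2 / Zf W z v)
      (fun v hv => (gf_hasDeriv h ⟨hu1.1.1.trans hv.1, hv.2⟩).mono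
        (Icc_subset_Icc_left hu1.1.1)) ?_ ⟨le_rfl, h1.le⟩ ⟨h1.le, le_rfl⟩
    intro v hv
    have h2 := norm_Zf_ge (z := z) hM ⟨hu1.1.1.trans hv.1, hv.2⟩
    have h3 := hge v hv
    have h4 : M + 2 * √s ≤ N := le_max_right _ _
    rw [norm_div, Complex.norm_ofNat, div_le_div_iff₀ (by linarith) hq]
    linarith
  rw [Real.norm_eq_abs, abs_of_nonneg (by linarith)] at hmv
  have h5 : 1 / √s * (s - u1) ≤ √s := by
    rw [div_mul_eq_mul_div, div_le_iff₀ hq]
    linarith [hu1.1.1]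
  have h6 := norm_sub_norm_le (gf W z s) (gf W z u1)
  have h7 := hu1.2
  linarith

end Vale.Agent.P153.R2.HULL
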