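import Vale.Agent.P153.R2.HULL.Limit

/-!
# HULL: capacity of the limit curve
-/

namespace Vale.Agent.P153.R2.HULL

open Set Metric Filter Topology
open Vale.Agent.P164

variable {ι κ : Type*} {l : Filter ι} {k : Filter κ}

/-- Initial segments of uniformly converging curves converge in the Hausdorff sense. -/
theorem HConv_image {L : ℝ} {η : ι → ℝ → ℂ} {η0 : ℝ → ℂ} (hη0 : ContinuousOn η0 (Icc 0 L))
    (hconv : TendstoUniformlyOn η η0 l (Icc 0 L)) {n : κ → ι} {u : κ → ℝ} {u0 : ℝ}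
    (hn : Tendsto n k l) (hu : Tendsto u k (𝓝 u0)) (huL : ∀ᶠ p in k, u p ∈ Icc 0 L)
    (hu0 : u0 ∈ Icc 0 L) :
    HConv k (fun p => η (n p) '' Icc 0 (u p)) (η0 '' Icc 0 u0) := by
  constructor
  · rintro z ⟨v, hv, rfl⟩ ε hε
    have hvL : v ∈ Icc 0 L := ⟨hv.1, hv.2.trans hu0.2⟩
    obtain ⟨δ, hδ, hc⟩ := Metric.continuousOn_iff.1 hη0 v hvL (ε / 2) (by positivity)
    filter_upwards [hn.eventually (Metric.tendstoUniformlyOn_iff.1 hconv (ε / 2) (by positivity)),
      huL, (Metric.tendsto_nhds.1 hu) δ hδ] with p a1 a2 a3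
    have hm : min v (u p) ∈ Icc 0 L := ⟨le_min hv.1 a2.1, (min_le_left _ _).trans hvL.2⟩
    refine ⟨η (n p) (min v (u p)), ⟨min v (u p), ⟨hm.1, min_le_right _ _⟩, rfl⟩, ?_⟩
    have h1 := a1 _ hm
    have h2 : dist (min v (u p)) v < δ := by
      rw [Real.dist_eq] at a3 ⊢
      rcases le_total v (u p) with h | h
      · rw [min_eq_left h, sub_self, abs_zero]; exact hδ
      · rw [min_eq_right h]
        have := hv.2
        rw [abs_lt] at a3
        rw [abs_lt]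
        constructor <;> linarith
    have h3 := hc _ hm h2
    rw [dist_comm] at h1
    have := dist_triangle (η (n p) (min v (u p))) (η0 (min v (u p))) (η0 v)
    linarith
  · intro ε hε
    have huc : UniformContinuousOn η0 (Icc 0 L) :=
      isCompact_Icc.uniformContinuousOn_of_continuous hη0
    obtain ⟨δ, hδ, hc⟩ := Metric.uniformContinuousOn_iff.1 huc (ε / 2) (by positivity)
    filter_upwards [hn.eventually (Metric.tendstoUniformlyOn_iff.1 hconv (ε / 2) (by positivity)),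
      huL, (Metric.tendsto_nhds.1 hu) δ hδ] with p a1 a2 a3
    rintro w ⟨v, hv, rfl⟩
    have hvL : v ∈ Icc 0 L := ⟨hv.1, hv.2.trans a2.2⟩
    have hm : min v u0 ∈ Icc 0 L := ⟨le_min hv.1 hu0.1, (min_le_left _ _).trans hvL.2⟩
    refine ⟨η0 (min v u0), ⟨min v u0, ⟨hm.1, min_le_right _ _⟩, rfl⟩, ?_⟩
    have h1 := a1 _ hvL
    have h2 : dist v (min v u0) < δ := by
      rw [Real.dist_eq] at a3 ⊢
      rcases le_total v u0 with h | h
      · rw [min_eq_left h, sub_self, abs_zero]; exact hδ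
      · rw [min_eq_right h]
        have := hv.2
        rw [abs_lt] at a3
        rw [abs_lt]
        constructor <;> linarith
    have h3 := hc _ hvL _ hm h2
    rw [dist_comm] at h1
    have := dist_triangle (η (n p) v) (η0 v) (η0 (min v u0))
    linarith

/-- **Capacities of converging curves.** If `η n → η0` uniformly on `[0,L]`, the drivers converge
uniformly on `[0,T]` and `η n [0,u]` generates the hull of the `n`-th chain at time `c n u`, then
`c n` converges uniformly to a continuous nondecreasing function `c0` and `η0 [0,u]` generates the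
hull of the limit chain at time `c0 u`. -/
theorem cap_curve [l.NeBot] {W : ι → ℝ → ℝ} {W0 : ℝ → ℝ} {T L : ℝ}
    (hW : ∀ n, Continuous (W n)) (hW0 : Continuous W0)
    (hWT : TendstoUniformlyOn W W0 l (Icc 0 T)) {η : ι → ℝ → ℂ} {η0 : ℝ → ℂ}
    (hη0 : ContinuousOn η0 (Icc 0 L)) (hconv : TendstoUniformlyOn η η0 l (Icc 0 L))
    {c : ι → ℝ → ℝ} (hcT : ∀ᶠ n in l, ∀ u ∈ Icc 0 L, c n u ∈ Icc 0 T)
    (hcm : ∀ᶠ n in l, MonotoneOn (c n) (Icc 0 L))
    (hdom : ∀ᶠ n in l, ∀ u ∈ Icc 0 L,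
      loewnerDomain (W n) (c n u) = unbComp (UH \ η n '' Icc 0 u)) :
    ∃ c0 : ℝ → ℝ, ContinuousOn c0 (Icc 0 L) ∧ MonotoneOn c0 (Icc 0 L) ∧
      (∀ u ∈ Icc 0 L, c0 u ∈ Icc 0 T) ∧ TendstoUniformlyOn c c0 l (Icc 0 L) ∧
      ∀ u ∈ Icc 0 L, loewnerDomain W0 (c0 u) = unbComp (UH \ η0 '' Icc 0 u) := by
  have key : ∀ u0 ∈ Icc 0 L, ∃ x ∈ Icc 0 T,
      Tendsto (fun p : ι × ℝ => c p.1 p.2) (l ×ˢ 𝓝[Icc 0 L] u0) (𝓝 x) ∧
        loewnerDomain W0 x = unbComp (UH \ η0 '' Icc 0 u0) := by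
    intro u0 hu0
    have : (𝓝[Icc 0 L] u0).NeBot := nhdsWithin_neBot_of_mem hu0
    have hn : Tendsto (fun p : ι × ℝ => p.1) (l ×ˢ 𝓝[Icc 0 L] u0) l := tendsto_fst
    have hu' : Tendsto (fun p : ι × ℝ => p.2) (l ×ˢ 𝓝[Icc 0 L] u0) (𝓝[Icc 0 L] u0) := tendsto_snd
    have hu : Tendsto (fun p : ι × ℝ => p.2) (l ×ˢ 𝓝[Icc 0 L] u0) (𝓝 u0) :=
      hu'.mono_right nhdsWithin_le_nhds
    have huL : ∀ᶠ p in l ×ˢ 𝓝[Icc 0 L] u0, p.2 ∈ Icc 0 L := hu' self_mem_nhdsWithin
    refine cap_limit (l := l ×ˢ 𝓝[Icc 0 L] u0) (W := fun p => W p.1) (W0 := W0) (T := T)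
      (c := fun p => c p.1 p.2) (E := fun p => η p.1 '' Icc 0 p.2) (E0 := η0 '' Icc 0 u0)
      (fun p => hW p.1) hW0 (fun v hv => hn.eventually (hWT v hv)) ?_ ?_
      (HConv_image hη0 hconv hn hu huL hu0) ?_
    · filter_upwards [hn.eventually hcT, huL] with p h1 h2
      exact h1 _ h2
    · exact isCompact_Icc.image_of_continuousOn (hη0.mono (Icc_subset_Icc_right hu0.2))
    · filter_upwards [hn.eventually hdom, huL] with p h1 h2
      exact h1 _ h2
  choose! c0 h0 h1 h2 using key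
  have hpt : ∀ u ∈ Icc 0 L, Tendsto (fun n => c n u) l (𝓝 (c0 u)) := by
    intro u hu
    exact (h1 u hu).comp
      (tendsto_id.prodMk (tendsto_const_pure.mono_right (pure_le_nhdsWithin hu)))
  have hcont : ContinuousOn c0 (Icc 0 L) := by
    intro u0 hu0
    rw [ContinuousWithinAt, Metric.tendsto_nhds]
    intro ε hε
    have e1 := (Metric.tendsto_nhds.1 (h1 u0 hu0)) (ε / 2) (by positivity)
    obtain ⟨pa, hpa, pb, hpb, hab⟩ := Filter.eventually_prod_iff.1 e1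
    filter_upwards [hpb, self_mem_nhdsWithin] with u hu huL
    have e2 : ∀ᶠ n in l, dist (c n u) (c0 u0) < ε / 2 := hpa.mono fun n hn => hab hn hu
    have e3 : dist (c0 u) (c0 u0) ≤ ε / 2 :=
      le_of_tendsto ((hpt u huL).dist tendsto_const_nhds) (e2.mono fun n hn => hn.le)
    linarith
  have hloc : TendstoLocallyUniformlyOn c c0 l (Icc 0 L) := by
    rw [tendstoLocallyUniformlyOn_iff_forall_tendsto]
    intro x hx
    have e1 : Tendsto (fun y : ι × ℝ => c0 y.2) (l ×ˢ 𝓝[Icc 0 L] x) (𝓝 (c0 x)) :=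
      (hcont x hx).tendsto.comp tendsto_snd
    exact (e1.prodMk_nhds (h1 x hx)).mono_right (nhds_le_uniformity _)
  have hunif : TendstoUniformlyOn c c0 l (Icc 0 L) :=
    (tendstoLocallyUniformlyOn_iff_tendstoUniformlyOn_of_compact isCompact_Icc).1 hloc
  refine ⟨c0, hcont, ?_, h0, hunif, h2⟩
  intro a ha b hb hab
  exact le_of_tendsto_of_tendsto (hpt a ha) (hpt b hb) (hcm.mono fun n hn => hn ha hb hab)

end Vale.Agent.P153.R2.HULL
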