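import Vale.Agent.P153.R2.HULL.Cap

/-!
# HULL: the capacity is bounded by the radius

If all points of the half-plane of modulus `> R` are alive at time `s`, then `s ≤ R ^ 2 / 2`.
-/

namespace Vale.Agent.P153.R2.HULL

open Set Metric Filter Topology
open Vale.Agent.P164

/-- The inverse Joukowski map `H → H \ closedBall 0 R`. -/
noncomputable def psiJ (R : ℝ) (w : ℂ) : ℂ :=
  (w + Complex.I * (4 * (R : ℂ) ^ 2 - w ^ 2) ^ (1 / 2 : ℂ)) / 2

lemma slit_of_UH (R : ℝ) {w : ℂ} (hw : 0 < w.im) : 4 * (R : ℂ) ^ 2 - w ^ 2 ∈ Complex.slitPlane := by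
  rw [Complex.mem_slitPlane_iff]
  have e1 : (4 * (R : ℂ) ^ 2 - w ^ 2).re = 4 * R ^ 2 - (w.re ^ 2 - w.im ^ 2) := by
    simp [pow_two]
  have e2 : (4 * (R : ℂ) ^ 2 - w ^ 2).im = -(2 * w.re * w.im) := by
    simp [pow_two]; ring
  rw [e1, e2]
  by_cases h : w.re = 0
  · left
    rw [h]
    have := sq_nonneg R
    have : 0 < w.im ^ 2 := by positivity
    nlinarith
  · right
    intro hcon
    have : w.re * w.im = 0 := by linarith
    rcases mul_eq_zero.1 this with h1 | h1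
    · exact h h1
    · exact hw.ne' h1

lemma sqrt_re_pos {x : ℂ} (hx : x ∈ Complex.slitPlane) : 0 < (x ^ (1 / 2 : ℂ)).re := by
  have hx0 : x ≠ 0 := Complex.slitPlane_ne_zero hx
  have h1 : (x ^ (1 / 2 : ℂ)) = Complex.exp (Complex.log x * (1 / 2)) := Complex.cpow_def_of_ne_zero hx0 _
  rw [h1, Complex.exp_re]
  apply mul_pos (Real.exp_pos _)
  have e : (Complex.log x * (1 / 2)).im = x.arg / 2 := by
    have : Complex.log x * (1 / 2) = ((1 / 2 : ℝ) : ℂ) * Complex.log x := by push_cast; ring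
    rw [this, Complex.im_ofReal_mul, Complex.log_im]; ring
  rw [e]
  have h2 := Complex.mem_slitPlane_iff_arg.1 hx
  have h3 := Complex.neg_pi_lt_arg x
  have h4 := Complex.arg_le_pi x
  have h5 : x.arg < Real.pi := lt_of_le_of_ne h4 h2.1
  exact Real.cos_pos_of_mem_Ioo ⟨by linarith, by linarith⟩

lemma sqrt_mul_self' {x : ℂ} (hx : x ≠ 0) : x ^ (1 / 2 : ℂ) * x ^ (1 / 2 : ℂ) = x := by
  rw [← Complex.cpow_add _ _ hx]
  norm_num

lemma sqrt_inv' {x : ℂ} (hx : x ≠ 0) : x ^ (1 / 2 - 1 : ℂ) * x ^ (1 / 2 : ℂ) = 1 := by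
  rw [← Complex.cpow_add _ _ hx]
  norm_num

lemma psiJ_im_pos (R : ℝ) {w : ℂ} (hw : 0 < w.im) : 0 < (psiJ R w).im := by
  have h1 := sqrt_re_pos (slit_of_UH R hw)
  have e : (psiJ R w).im = (w.im + ((4 * (R : ℂ) ^ 2 - w ^ 2) ^ (1 / 2 : ℂ)).re) / 2 := by
    unfold psiJ
    have : (w + Complex.I * (4 * (R : ℂ) ^ 2 - w ^ 2) ^ (1 / 2 : ℂ)) / 2 =
      ((1 / 2 : ℝ) : ℂ) * (w + Complex.I * (4 * (R : ℂ) ^ 2 - w ^ 2) ^ (1 / 2 : ℂ)) := by
      push_cast; ring
    rw [this, Complex.im_ofReal_mul]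
    simp only [Complex.add_im, Complex.mul_im, Complex.I_re, Complex.I_im, zero_mul, one_mul,
      zero_add]
    ring
  rw [e]
  linarith

lemma psiJ_quad (R : ℝ) {w : ℂ} (hw : 0 < w.im) :
    psiJ R w ^ 2 - w * psiJ R w + (R : ℂ) ^ 2 = 0 := by
  have h1 := sqrt_mul_self' (Complex.slitPlane_ne_zero (slit_of_UH R hw))
  unfold psiJ
  set s := (4 * (R : ℂ) ^ 2 - w ^ 2) ^ (1 / 2 : ℂ) with hs
  have h2 : Complex.I * Complex.I = -1 := Complex.I_mul_I
  linear_combination (1 / 4) * s * s * h2 - (1 / 4) * h1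

lemma psiJ_norm {R : ℝ} {w : ℂ} (hw : 0 < w.im) : R < ‖psiJ R w‖ := by
  have h1 := psiJ_quad R hw
  have h2 := psiJ_im_pos R hw
  set p := psiJ R w with hp
  have h3 : p.re * p.re - p.im * p.im - (w.re * p.re - w.im * p.im) + R ^ 2 = 0 := by
    have := congrArg Complex.re h1
    simpa [pow_two] using this
  have h4 : p.re * p.im + p.im * p.re - (w.re * p.im + w.im * p.re) = 0 := by
    have := congrArg Complex.im h1
    simpa [pow_two] using this
  have h5 : w.im * (p.re * p.re + p.im * p.im) = p.im * (p.re * p.re + p.im * p.im - R ^ 2) := by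
    linear_combination (-p.re) * h4 + p.im * h3
  have h6 : 0 < p.re * p.re + p.im * p.im := by nlinarith [mul_self_nonneg p.re, mul_pos h2 h2]
  have h7 : 0 < p.im * (p.re * p.re + p.im * p.im - R ^ 2) := by
    rw [← h5]; positivity
  have h8 : 0 < p.re * p.re + p.im * p.im - R ^ 2 := (pos_iff_pos_of_mul_pos h7).1 h2
  have h9 : R ^ 2 < ‖p‖ ^ 2 := by
    rw [Complex.sq_norm, Complex.normSq_apply]
    linarith
  exact lt_of_pow_lt_pow_left₀ 2 (norm_nonneg _) h9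

lemma psiJ_hasDerivAt (R : ℝ) {w : ℂ} (hw : 0 < w.im) :
    HasDerivAt (psiJ R) ((1 + Complex.I * ((1 / 2 : ℂ) * (4 * (R : ℂ) ^ 2 - w ^ 2) ^ (1 / 2 - 1 : ℂ) *
      (-(2 * w)))) / 2) w := by
  have h1 : HasDerivAt (fun w : ℂ => 4 * (R : ℂ) ^ 2 - w ^ 2) (-(2 * w)) w := by
    have := ((hasDerivAt_id w).pow 2).const_sub (4 * (R : ℂ) ^ 2)
    refine (this.congr_deriv ?_)
    simp
  have h2 := h1.cpow_const (c := (1 / 2 : ℂ)) (slit_of_UH R hw)
  exact ((hasDerivAt_id w).add (h2.const_mul Complex.I)).div_const 2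

/-- The value of the inverse Joukowski map and of its derivative on the imaginary axis. -/
lemma psiJ_at {R y : ℝ} (hR : 0 < R) (hy : R < y) :
    psiJ R (((y - R ^ 2 / y : ℝ) : ℂ) * Complex.I) = (y : ℂ) * Complex.I ∧
    HasDerivAt (psiJ R) ((y / (y + R ^ 2 / y) : ℝ) : ℂ)
      (((y - R ^ 2 / y : ℝ) : ℂ) * Complex.I) := by
  have hy0 : 0 < y := hR.trans hy
  have hb : 0 < y - R ^ 2 / y := by
    rw [sub_pos, div_lt_iff₀ hy0]
    nlinarith
  set b : ℝ := y - R ^ 2 / y with hbd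
  set a : ℝ := y + R ^ 2 / y with had
  have ha : 0 < a := by rw [had]; positivity
  have hw : 0 < ((b : ℂ) * Complex.I).im := by simpa using hb
  have hx : 4 * (R : ℂ) ^ 2 - ((b : ℂ) * Complex.I) ^ 2 = (a : ℂ) ^ 2 := by
    have e : 4 * R ^ 2 + b ^ 2 = a ^ 2 := by
      rw [hbd, had]
      field_simp
      ring
    have e' : (4 * (R : ℂ) ^ 2 + (b : ℂ) ^ 2) = (a : ℂ) ^ 2 := by exact_mod_cast e
    rw [← e', mul_pow, Complex.I_sq]
    ring
  have hsl := slit_of_UH R hw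
  have hne := Complex.slitPlane_ne_zero hsl
  have hpos := sqrt_re_pos hsl
  have hsq := sqrt_mul_self' hne
  have hinv := sqrt_inv' hne
  set s := (4 * (R : ℂ) ^ 2 - ((b : ℂ) * Complex.I) ^ 2) ^ (1 / 2 : ℂ) with hs
  have hsa : s = (a : ℂ) := by
    have h1 : (s - a) * (s + a) = 0 := by
      have : s * s = (a : ℂ) ^ 2 := by rw [hsq, hx]
      linear_combination this
    rcases mul_eq_zero.1 h1 with h | h
    · exact sub_eq_zero.1 h
    · exfalso
      have h2 := congrArg Complex.re h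
      simp only [Complex.add_re, Complex.ofReal_re, Complex.zero_re] at h2
      linarith
  constructor
  · unfold psiJ
    rw [← hs, hsa]
    have : (y : ℂ) = ((b : ℂ) + (a : ℂ)) / 2 := by
      have e : y = (b + a) / 2 := by rw [hbd, had]; ring
      exact_mod_cast e
    rw [this]
    ring
  · refine (psiJ_hasDerivAt R hw).congr_deriv ?_
    have hD : (4 * (R : ℂ) ^ 2 - ((b : ℂ) * Complex.I) ^ 2) ^ (1 / 2 - 1 : ℂ) = (a : ℂ)⁻¹ := by
      rw [hsa] at hinv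
      exact eq_inv_of_mul_eq_one_left hinv
    rw [hD]
    have ha' : (a : ℂ) ≠ 0 := by exact_mod_cast ha.ne'
    have e1 : (1 + Complex.I * ((1 / 2 : ℂ) * (a : ℂ)⁻¹ * (-(2 * ((b : ℂ) * Complex.I))))) / 2 =
        (1 + (b : ℂ) * (a : ℂ)⁻¹) / 2 := by
      have h2 : Complex.I * Complex.I = -1 := Complex.I_mul_I
      linear_combination (-(1 / 2) * (b : ℂ) * (a : ℂ)⁻¹) * h2
    rw [e1]
    have e2 : (1 + b * a⁻¹) / 2 = y / a := by
      have e3 : a + b = 2 * y := by rw [hbd, had]; ring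
      field_simp
      linarith
    exact_mod_cast e2

/-- Lower bound for the conformal radius. -/
theorem exp_Uf_lower {W : ℝ → ℝ} (hW : Continuous W) {s R : ℝ} (hs : 0 ≤ s) (hR : 0 < R)
    (h : ∀ z : ℂ, 0 < z.im → R < ‖z‖ → z ∈ loewnerDomain W s) {y : ℝ} (hy : R < y) :
    y / (y + R ^ 2 / y) * (y - R ^ 2 / y) ≤ Real.exp (Uf W ((y : ℂ) * Complex.I) s) := by
  obtain ⟨h1, h2⟩ := psiJ_at hR hy
  have hy0 : 0 < y := hR.trans hy
  have hb : 0 < y - R ^ 2 / y := by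
    rw [sub_pos, div_lt_iff₀ hy0]
    nlinarith
  set b : ℝ := y - R ^ 2 / y with hbd
  have hbim : ((b : ℂ) * Complex.I).im = b := by simp
  set φ : ℂ → ℂ := fun w => Zf W (psiJ R w) s with hφ
  have hmem : ∀ w : ℂ, 0 < w.im → psiJ R w ∈ loewnerDomain W s := fun w hw =>
    h _ (psiJ_im_pos R hw) (psiJ_norm hw)
  have hsp := schwarz_pick_half (φ := φ) (w₀ := (b : ℂ) * Complex.I)
    (fun w hw => ((Zf_hasDerivAt hW hs (hmem w hw)).comp w
      (psiJ_hasDerivAt R hw)).differentiableAt)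
    (fun w hw => Zf_im_pos hs (hmem w hw)) (by rw [hbim]; exact hb)
  have hyd : (y : ℂ) * Complex.I ∈ loewnerDomain W s := by
    rw [← h1]
    exact hmem _ (by rw [hbim]; exact hb)
  have hD := Zf_hasDerivAt hW hs hyd
  have hn := norm_deriv_Zf hW hs hyd
  rw [hD.deriv] at hn
  have hcomp : HasDerivAt φ ((Complex.exp (-∫ u in (0 : ℝ)..s, 2 / (Zf W ((y : ℂ) * Complex.I) u) ^ 2)) *
      ((y / (y + R ^ 2 / y) : ℝ) : ℂ)) ((b : ℂ) * Complex.I) := by
    have hD' : HasDerivAt (fun z => Zf W z s)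
        (Complex.exp (-∫ u in (0 : ℝ)..s, 2 / (Zf W ((y : ℂ) * Complex.I) u) ^ 2))
        (psiJ R ((b : ℂ) * Complex.I)) := by rw [h1]; exact hD
    exact hD'.comp _ h2
  rw [hcomp.deriv, norm_mul, hn, hbim] at hsp
  have hφ0 : φ ((b : ℂ) * Complex.I) = Zf W ((y : ℂ) * Complex.I) s := by
    rw [hφ]; simp only; rw [h1]
  rw [hφ0, Complex.norm_real, Real.norm_eq_abs, abs_of_nonneg (by positivity)] at hsp
  have hY := Zf_im_pos hs hyd
  have he := Real.exp_pos (Uf W ((y : ℂ) * Complex.I) s)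
  rw [Real.exp_neg] at hsp
  have h5 : (Zf W ((y : ℂ) * Complex.I) s).im * ((y / (y + R ^ 2 / y)) * b) ≤
      (Zf W ((y : ℂ) * Complex.I) s).im * Real.exp (Uf W ((y : ℂ) * Complex.I) s) := by
    have := mul_le_mul_of_nonneg_right hsp he.le
    calc (Zf W ((y : ℂ) * Complex.I) s).im * ((y / (y + R ^ 2 / y)) * b)
        = (Zf W ((y : ℂ) * Complex.I) s).im * (Real.exp (Uf W ((y : ℂ) * Complex.I) s))⁻¹ *
          (y / (y + R ^ 2 / y)) * b * Real.exp (Uf W ((y : ℂ) * Complex.I) s) := by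
          field_simp
      _ ≤ _ := this
  exact le_of_mul_le_mul_left h5 hY

/-- Bounds for the flow of a high point. -/
lemma rate_lower {W : ℝ → ℝ} {s M : ℝ} (hs : 0 ≤ s) (hM : ∀ u ∈ Icc 0 s, |W u| ≤ M)
    {y : ℝ} (hy : 4 * s + 1 ≤ y) (hy2 : 16 * s ≤ y ^ 2)
    (hz : (y : ℂ) * Complex.I ∈ loewnerDomain W s) {u : ℝ} (hu : u ∈ Icc 0 s) :
    4 * (y ^ 2 - 4 * s) / (y ^ 2 + (M + 1) ^ 2) ^ 2 ≤ rate (Zf W ((y : ℂ) * Complex.I) u) := by
  have hy0 : 0 < y := by linarith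
  have hM0 : 0 ≤ M := (abs_nonneg _).trans (hM u hu)
  set z : ℂ := (y : ℂ) * Complex.I with hzd
  have hzim : z.im = y := by simp [hzd]
  have hzre : z.re = 0 := by simp [hzd]
  have hlow : ∀ v ∈ Icc 0 s, y / 2 ≤ (Zf W z v).im := by
    intro v hv
    have h1 := sq_im_ge hv.1 (dom_mono hv.2 hz)
    rw [hzim] at h1
    have h2 := Zf_im_pos hv.1 (dom_mono hv.2 hz)
    have h3 : (y / 2) ^ 2 ≤ (Zf W z v).im ^ 2 := by nlinarith [hv.2]
    exact (pow_le_pow_iff_left₀ (by positivity) h2.le two_ne_zero).1 h3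
  have hre : |(gf W z u).re| ≤ 1 := by
    have h1 : ‖(gf W z u) - (gf W z 0)‖ ≤ 4 / y * ‖u - 0‖ := by
      refine (convex_Icc 0 s).norm_image_sub_le_of_norm_hasDerivWithin_le
        (f := fun v => gf W z v) (f' := fun v => 2 / Zf W z v)
        (fun v hv => gf_hasDeriv hz hv) ?_ ⟨le_rfl, hs⟩ hu
      intro v hv
      have h2 := hlow v hv
      have h3 : y / 2 ≤ ‖Zf W z v‖ := h2.trans ((le_abs_self _).trans (Complex.abs_im_le_norm _))
      rw [norm_div, Complex.norm_ofNat, div_le_div_iff₀ (by linarith) hy0]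
      linarith
    rw [gf_zero (by rw [hzim]; exact hy0), sub_zero, Real.norm_eq_abs, abs_of_nonneg hu.1] at h1
    have h2 : |(gf W z u - z).re| ≤ 4 / y * u := (Complex.abs_re_le_norm _).trans h1
    rw [Complex.sub_re, hzre, sub_zero] at h2
    refine h2.trans ?_
    rw [div_mul_eq_mul_div, div_le_one hy0]
    linarith [hu.2]
  have hsq := sq_im_ge hu.1 (dom_mono hu.2 hz)
  rw [hzim] at hsq
  have hYp := Zf_im_pos hu.1 (dom_mono hu.2 hz)
  have hle : (Zf W z u).im ≤ y := by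
    have := im_le_of_le le_rfl hu.1 (dom_mono hu.2 hz)
    rw [Zf_zero (by rw [hzim]; exact hy0)] at this
    simpa [hzim] using this
  have hZre : |(Zf W z u).re| ≤ M + 1 := by
    have e : (Zf W z u).re = (gf W z u).re - W u := by rw [Zf_eq]; simp
    rw [e]
    have := abs_sub (gf W z u).re (W u)
    have := hM u hu
    linarith
  have hnorm : ‖Zf W z u‖ ^ 2 ≤ y ^ 2 + (M + 1) ^ 2 := by
    rw [Complex.sq_norm, Complex.normSq_apply]
    have h1 : (Zf W z u).re * (Zf W z u).re ≤ (M + 1) ^ 2 := by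
      rw [← abs_mul_abs_self]
      nlinarith [abs_nonneg (Zf W z u).re]
    nlinarith
  have hn0 : 0 < ‖Zf W z u‖ := Zf_norm_pos hu.1 (dom_mono hu.2 hz)
  rw [rate_eq]
  have h4 : ‖Zf W z u‖ ^ 4 ≤ (y ^ 2 + (M + 1) ^ 2) ^ 2 := by
    have e : ‖Zf W z u‖ ^ 4 = (‖Zf W z u‖ ^ 2) ^ 2 := by ring
    rw [e]
    exact pow_le_pow_left₀ (by positivity) hnorm 2
  have h5 : 0 ≤ y ^ 2 - 4 * s := by nlinarith
  calc 4 * (y ^ 2 - 4 * s) / (y ^ 2 + (M + 1) ^ 2) ^ 2
      ≤ 4 * (y ^ 2 - 4 * s) / ‖Zf W z u‖ ^ 4 :=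
        div_le_div_of_nonneg_left (by positivity) (by positivity) h4
    _ ≤ 4 * (Zf W z u).im ^ 2 / ‖Zf W z u‖ ^ 4 := by
        apply div_le_div_of_nonneg_right _ (by positivity)
        have := hu.2
        linarith

/-- The arithmetic behind the capacity bound. -/
lemma cap_arith {s R A : ℝ} (hs : 0 ≤ s) (hR : 0 < R) (hA0 : 0 ≤ A)
    (key : ∀ y : ℝ, R < y → 4 * s + 1 ≤ y → 16 * s ≤ y ^ 2 →
      s * (4 * (y ^ 2 - 4 * s)) * (y ^ 2 - R ^ 2) ≤ 2 * R ^ 2 * (y ^ 2 + A) ^ 2) :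
    s ≤ R ^ 2 / 2 := by
  by_contra hcon
  push Not at hcon
  obtain ⟨ε, hε⟩ : ∃ ε, ε = 4 * s - 2 * R ^ 2 := ⟨_, rfl⟩
  have hε0 : 0 < ε := by rw [hε]; linarith
  obtain ⟨B, hB⟩ : ∃ B, B = 16 * s ^ 2 + 4 * s * R ^ 2 + 4 * R ^ 2 * A := ⟨_, rfl⟩
  obtain ⟨C, hC⟩ : ∃ C, C = 2 * R ^ 2 * A ^ 2 := ⟨_, rfl⟩
  have hB0 : 0 ≤ B := by rw [hB]; positivity
  have hC0 : 0 ≤ C := by rw [hC]; positivity
  have hq : 0 ≤ (B + C) / ε := by positivity
  obtain ⟨y, hy⟩ : ∃ y, y = R + 4 * s + 1 + 16 * s + (B + C) / ε + 1 := ⟨_, rfl⟩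
  have hy1 : 1 ≤ y := by rw [hy]; linarith
  have hyR : R < y := by rw [hy]; linarith
  have hy4 : 4 * s + 1 ≤ y := by rw [hy]; linarith
  have hy16 : 16 * s ≤ y := by rw [hy]; linarith
  have h2 : (B + C) / ε < y := by rw [hy]; linarith
  clear hy
  have hyy : y ≤ y ^ 2 := by nlinarith
  have h1 := key y hyR hy4 (hy16.trans hyy)
  rw [div_lt_iff₀ hε0] at h2
  obtain ⟨t, ht⟩ : ∃ t, t = y ^ 2 := ⟨_, rfl⟩
  rw [← ht] at h1 hyy
  clear ht key
  have ht1 : 1 ≤ t := hy1.trans hyy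
  have h3 : B + C < t * ε := h2.trans_le (mul_le_mul_of_nonneg_right hyy hε0.le)
  have h4 : (B + C) * t < t * ε * t := mul_lt_mul_of_pos_right h3 (by linarith)
  have h5 : C ≤ C * t := le_mul_of_one_le_right hC0 ht1
  have h6 : ε * t ^ 2 = s * (4 * (t - 4 * s)) * (t - R ^ 2) - 2 * R ^ 2 * (t + A) ^ 2
      + B * t + C - 16 * s ^ 2 * R ^ 2 := by
    rw [hε, hB, hC]; ring
  have h7 : 0 ≤ 16 * s ^ 2 * R ^ 2 := by positivity
  have h8 : t * ε * t = ε * t ^ 2 := by ring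
  have h9 : (B + C) * t = B * t + C * t := by ring
  linarith

/-- **Capacity bound.** -/
theorem cap_le {W : ℝ → ℝ} (hW : Continuous W) {s R : ℝ} (hs : 0 ≤ s) (hR : 0 < R)
    (h : ∀ z : ℂ, 0 < z.im → R < ‖z‖ → z ∈ loewnerDomain W s) : s ≤ R ^ 2 / 2 := by
  obtain ⟨M, hM⟩ : ∃ M, ∀ u ∈ Icc 0 s, |W u| ≤ M := by
    obtain ⟨M, hM⟩ := isCompact_Icc.exists_bound_of_continuousOn (hW.continuousOn (s := Icc 0 s))
    exact ⟨M, fun u hu => by simpa using hM u hu⟩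
  have hM0 : 0 ≤ M := (abs_nonneg _).trans (hM 0 ⟨le_rfl, hs⟩)
  set A : ℝ := (M + 1) ^ 2 with hA
  have hA0 : 0 ≤ A := by positivity
  -- the basic inequality
  have key : ∀ y : ℝ, R < y → 4 * s + 1 ≤ y → 16 * s ≤ y ^ 2 → 
      s * (4 * (y ^ 2 - 4 * s)) * (y ^ 2 - R ^ 2) ≤ 2 * R ^ 2 * (y ^ 2 + A) ^ 2 := by
    intro y hy1 hy2 hy3
    have hy0 : 0 < y := hR.trans hy1
    have hzd : (y : ℂ) * Complex.I ∈ loewnerDomain W s :=
      h _ (by simpa using hy0) (by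
        rw [norm_mul, Complex.norm_I, mul_one, Complex.norm_real, Real.norm_eq_abs,
          abs_of_pos hy0]; exact hy1)
    have h1 := exp_Uf_lower hW hs hR h hy1
    have hb : 0 < y - R ^ 2 / y := by
      rw [sub_pos, div_lt_iff₀ hy0]
      nlinarith
    have ha : 0 < y + R ^ 2 / y := by positivity
    have h2 : Real.log (y / (y + R ^ 2 / y) * (y - R ^ 2 / y)) ≤ Uf W ((y : ℂ) * Complex.I) s :=
      (Real.log_le_iff_le_exp (by positivity)).2 h1
    have him : ((y : ℂ) * Complex.I).im = y := by simp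
    rw [Uf_eq, him] at h2
    have h3 : s * (4 * (y ^ 2 - 4 * s) / (y ^ 2 + A) ^ 2) ≤
        ∫ u in (0 : ℝ)..s, rate (Zf W ((y : ℂ) * Complex.I) u) := by
      have hint : IntervalIntegrable (fun u => rate (Zf W ((y : ℂ) * Complex.I) u))
          MeasureTheory.volume 0 s := by
        apply ContinuousOn.intervalIntegrable
        rw [uIcc_of_le hs]
        exact rate_cont hW hs hzd
      have := intervalIntegral.integral_mono_on hs
        (f := fun _ => 4 * (y ^ 2 - 4 * s) / (y ^ 2 + A) ^ 2)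
        intervalIntegrable_const hint (fun u hu => rate_lower hs hM hy2 hy3 hzd hu)
      rwa [intervalIntegral.integral_const, smul_eq_mul, sub_zero] at this
    have h4 : Real.log y - Real.log (y / (y + R ^ 2 / y) * (y - R ^ 2 / y)) ≤
        2 * R ^ 2 / (y ^ 2 - R ^ 2) := by
      rw [← Real.log_div hy0.ne' (by positivity)]
      have e : y / (y / (y + R ^ 2 / y) * (y - R ^ 2 / y)) = 1 + 2 * R ^ 2 / (y ^ 2 - R ^ 2) := by
        have hne : y ^ 2 - R ^ 2 ≠ 0 := by nlinarith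
        have hb' : y - R ^ 2 / y = (y ^ 2 - R ^ 2) / y := by field_simp
        have ha' : y + R ^ 2 / y = (y ^ 2 + R ^ 2) / y := by field_simp
        rw [hb', ha']
        have : y ^ 2 + R ^ 2 ≠ 0 := by positivity
        field_simp
        ring
      rw [e]
      have hpos : 0 < y ^ 2 - R ^ 2 := by nlinarith
      have := Real.log_le_sub_one_of_pos (x := 1 + 2 * R ^ 2 / (y ^ 2 - R ^ 2)) (by positivity)
      linarith
    have h5 : s * (4 * (y ^ 2 - 4 * s) / (y ^ 2 + A) ^ 2) ≤ 2 * R ^ 2 / (y ^ 2 - R ^ 2) := by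
      linarith
    have hpos : 0 < y ^ 2 - R ^ 2 := by nlinarith
    have hpA : 0 < (y ^ 2 + A) ^ 2 := by positivity
    rw [← mul_div_assoc, div_le_div_iff₀ hpA hpos] at h5
    exact h5
  exact cap_arith hs hR hA0 key

end Vale.Agent.P153.R2.HULL
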